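import Vale.Agent.P160.Asym

/-!
# P160: singularity probability of symmetric random sign matrices, a lower bound of the order
`n² 2^{-n}`
-/

namespace Vale.Agent.Results.P160.TwoRows

open SymSign

/-- For every `n ≥ 1` the singularity probability `q n` of the symmetric `n × n` sign matrix is
at least `x - x²` with `x = n (n - 1) / 2^n`; in particular `q n ≥ (1 - o(1)) n² / 2^n`. -/
theorem result :
    (∀ n : ℕ, 1 ≤ n →
      (n : ℝ) * ((n : ℝ) - 1) / 2 ^ n - ((n : ℝ) * ((n : ℝ) - 1) / 2 ^ n) ^ 2 ≤ q n) ∧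
    (∀ ε : ℝ, 0 < ε → ∃ n₀ : ℕ, ∀ n : ℕ, n₀ ≤ n → (1 - ε) * ((n : ℝ) ^ 2 / 2 ^ n) ≤ q n) := by
  refine ⟨fun n hn => ?_, asym⟩
  have h := main n hn
  have e1 : ((n * (n - 1) : ℕ) : ℝ) = (n : ℝ) * ((n : ℝ) - 1) := by
    push_cast [Nat.cast_sub hn]
    ring
  rw [e1] at h
  exact h

end Vale.Agent.Results.P160.TwoRows
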